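import Vale.Agent.P029.Stmt

/-!
# P029: definitions for the form of the Deligne-Drinfeld conjecture with arbitrary generators
-/

noncomputable section

namespace Vale.Agent.P029.H461

open Vale.Agent.P029.Stmt

/-- The coefficient of the word `x^m y` in the image of `ψ` in the free associative algebra
`ℚ⟨x, y⟩` (the letters `x, y` are `0, 1`). -/
def coefXY (m : ℕ) (ψ : L) : ℚ :=
  letI := LieRing.ofAssociativeRing (A := FreeAlgebra ℚ (Fin 2))
  (FreeAlgebra.equivMonoidAlgebraFreeMonoid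
    (FreeLieAlgebra.lift ℚ (FreeAlgebra.ι ℚ : Fin 2 → FreeAlgebra ℚ (Fin 2)) ψ)).coeff
      (FreeMonoid.ofList (List.replicate m 0 ++ [1]))

/-- `f` is the Lie algebra homomorphism from `F` to `L` with the Ihara bracket that is determined
by `e k ↦ σ k`. -/
def IsInduced (σ : ℕ → L) (f : F → L) : Prop :=
  (∀ a b, f (a + b) = f a + f b) ∧ (∀ (c : ℚ) (a : F), f (c • a) = c • f a) ∧
    (∀ a b, IsBr (f a) (f b) (f ⁅a, b⁆)) ∧ ∀ k, f (FreeLieAlgebra.of ℚ k) = σ k

/-- `{W, W}`: the span of all Ihara brackets `{ψ, φ}` of elements `ψ, φ` of `W`. -/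
def WW : Submodule ℚ L :=
  Submodule.span ℚ {χ | ∃ ψ φ, IsW ψ ∧ IsW φ ∧ IsBr ψ φ χ}

end Vale.Agent.P029.H461
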