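import Vale.Agent.P029.Bdl.B2
import Vale.Agent.P029.H461.Defs

/-!
# P029: every choice of generators
-/

noncomputable section

attribute [local instance 100] LieRing.ofAssociativeRing

namespace Vale.Agent.P029.H461

open Vale.Agent.P029 Vale.Agent.P029.Bridge

theorem coefXY_eq' (m : ℕ) (ψ : L) : coefXY m ψ = Vale.Agent.P029.coefXY m ψ := rfl

/-- A derivation in the sense of `Stmt.IsD` as a Lie derivation. -/
theorem isD_to {ψ : L} {D : L → L} (h : Stmt.IsD ψ D) :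
    ∃ D' : LieDerivation ℚ L L, IsIharaDer ψ D' ∧ ∀ a, D' a = D a := by
  obtain ⟨h1, h2, h3, h4, h5⟩ := h
  let D' : LieDerivation ℚ L L :=
    { toFun := D
      map_add' := h1
      map_smul' := h2
      leibniz' := fun a b => by
        show D ⁅a, b⁆ = ⁅a, D b⁆ - ⁅b, D a⁆
        rw [h3, ← lie_skew (D a) b, sub_eq_add_neg, add_comm] }
  exact ⟨D', ⟨h4, h5⟩, fun a => rfl⟩

theorem isBr_iff {ψ φ χ : L} : Stmt.IsBr ψ φ χ ↔ IsIharaBracket ψ φ χ := by
  constructor
  · rintro ⟨D, E, hD, hE, rfl⟩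
    obtain ⟨D', hD', hD2⟩ := isD_to hD
    obtain ⟨E', hE', hE2⟩ := isD_to hE
    exact ⟨D', E', hD', hE', by rw [hD2, hE2]⟩
  · exact isBr_of

theorem isBr_eq {ψ φ χ : L} (h : Stmt.IsBr ψ φ χ) : χ = Low.ihara ψ φ :=
  isIharaBracket_eq (isBr_iff.1 h)

/-- An induced map as a homomorphism of Lie algebras. -/
def homOf {σ : ℕ → L} {f : F → L} (h : IsInduced σ f) : F →ₗ⁅ℚ⁆ IhLie.IL :=
  { toFun := fun a => ⟨f a⟩
    map_add' := fun a b => IhLie.val_injective (h.1 a b)
    map_smul' := fun c a => IhLie.val_injective (h.2.1 c a)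
    map_lie' := fun {a b} => IhLie.val_injective
      (ihara_unique (isBr_iff.1 (h.2.2.1 a b)) (IhLie.ib_spec _ _)) }

theorem induced_unique {σ : ℕ → L} {f g : F → L} (hf : IsInduced σ f) (hg : IsInduced σ g) :
    f = g := by
  have h : homOf hf = homOf hg := by
    apply FreeLieAlgebra.hom_ext
    intro k
    apply IhLie.val_injective
    show f (FreeLieAlgebra.of ℚ k) = g (FreeLieAlgebra.of ℚ k)
    rw [hf.2.2.2 k, hg.2.2.2 k]
  funext a
  exact congrArg (fun F : F →ₗ⁅ℚ⁆ IhLie.IL => (F a).val) h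

theorem induced_of {σ : ℕ → L} {f : F →ₗ[ℚ] L} (h1 : ∀ k, f (FreeLieAlgebra.of ℚ k) = σ k)
    (h2 : ∀ a b, IsIharaBracket (f a) (f b) (f ⁅a, b⁆)) : IsInduced σ f :=
  ⟨fun a b => map_add f a b, fun c a => map_smul f c a, fun a b => isBr_of (h2 a b), h1⟩

theorem exists_induced (σ : ℕ → L) : ∃! f : F → L, IsInduced σ f := by
  obtain ⟨f, h1, h2⟩ := exists_ihara_hom σ
  exact ⟨f, induced_of h1 h2, fun g hg => induced_unique hg (induced_of h1 h2)⟩

/-- the Ihara bracket is additive on the left -/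
theorem ihara_add_left (a b c : L) :
    Low.ihara (a + b) c = Low.ihara a c + Low.ihara b c := by
  simp only [Low.ihara, Low.Dp_add_left, map_add, add_lie]
  abel

theorem ihara_add_right (a b c : L) :
    Low.ihara a (b + c) = Low.ihara a b + Low.ihara a c := by
  simp only [Low.ihara, Low.Dp_add_left, map_add, lie_add]
  abel

theorem ihara_zero_left (a : L) : Low.ihara (0 : L) a = 0 := by
  simp [Low.ihara, Low.Dp_zero_left]

theorem ihara_zero_right (a : L) : Low.ihara a (0 : L) = 0 := by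
  simp [Low.ihara, Low.Dp_zero_left]

/-- the isomorphism for a family with nonzero coefficients of `x^(2k+2) y` -/
theorem main_iso : ∃ (σ : ℕ → L) (f : F →ₗ[ℚ] L), (∀ k, σ k ∈ W (2 * k + 3)) ∧
    (∀ k, Vale.Agent.P029.coefXY (2 * k + 2) (σ k) ≠ 0) ∧
    (∀ k, f (FreeLieAlgebra.of ℚ k) = σ k) ∧ IsGradedIso f := by
  choose σ hσ hc using Low.sigma_exists
  obtain ⟨f, hf, hiso⟩ := iso_of_closed wClosed σ hσ hc
  exact ⟨σ, f, hσ, hc, hf, hiso⟩

theorem mem_iSup_W {ψ : L} (h : IsSol ψ) : ψ ∈ (⨆ n, W n : Submodule ℚ L) := by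
  obtain ⟨σ, f, -, -, -, hiso⟩ := main_iso
  obtain ⟨a, rfl⟩ := (range_iff_isSol f hiso.2.2 ψ).1 h
  have ha : a ∈ (⨆ n, Fpart n : Submodule ℚ F) := Grade.mem_all a
  have h2 : f a ∈ (⨆ n, Fpart n : Submodule ℚ F).map f := ⟨a, ha, rfl⟩
  rw [Submodule.map_iSup] at h2
  have h3 : ∀ n, (Fpart n).map f = W n := hiso.2.2
  simp only [h3] at h2
  exact h2

theorem coef_ihara_zero (k : ℕ) {ψ φ : L} (hψ : ψ ∈ (⨆ n, W n : Submodule ℚ L))
    (hφ : φ ∈ (⨆ n, W n : Submodule ℚ L)) :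
    Vale.Agent.P029.coefXY k (Low.ihara ψ φ) = 0 := by
  obtain ⟨c, hc⟩ := Low.coefXY_linear k
  rw [← hc]
  induction hψ using Submodule.iSup_induction' with
  | mem m x hx =>
    induction hφ using Submodule.iSup_induction' with
    | mem n y hy =>
      rcases Nat.lt_or_ge 2 m with hm | hm
      · rcases Nat.lt_or_ge 2 n with hn | hn
        · rw [hc]
          exact Low.coefXY_ihara (by omega : 2 ≤ m) (by omega : 2 ≤ n) hx.1 hy.1
        · rw [W_small hn, Submodule.mem_bot] at hy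
          rw [hy, ihara_zero_right, map_zero]
      · rw [W_small hm, Submodule.mem_bot] at hx
        rw [hx, ihara_zero_left, map_zero]
    | zero => rw [ihara_zero_right, map_zero]
    | add y z _ _ hy hz => rw [ihara_add_right, map_add, hy, hz, add_zero]
  | zero => rw [ihara_zero_left, map_zero]
  | add x z _ _ hx hz => rw [ihara_add_left, map_add, hx, hz, add_zero]

/-- the coefficients of `x^k y` vanish on `{W, W}` -/
theorem coef_WW (k : ℕ) {ψ : L} (h : ψ ∈ WW) : Vale.Agent.P029.coefXY k ψ = 0 := by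
  obtain ⟨c, hc⟩ := Low.coefXY_linear k
  rw [← hc]
  unfold WW at h
  induction h using Submodule.span_induction with
  | mem x hx =>
    obtain ⟨a, b, ha, hb, hab⟩ := hx
    rw [isBr_eq hab, hc]
    exact coef_ihara_zero k (mem_iSup_W ((isW_iff a).1 ha)) (mem_iSup_W ((isW_iff b).1 hb))
  | zero => exact map_zero c
  | add x y _ _ hx hy => rw [map_add, hx, hy, add_zero]
  | smul r x _ hx => rw [map_smul, hx, smul_zero]

/-- `Fpart n` is spanned by the brackets and the letter of weight `n` -/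
theorem Fpart_split {n : ℕ} {a : F} (ha : a ∈ Fpart n) :
    ∃ b ∈ Fnode n, a = b ∨ ∃ (k : ℕ) (c : ℚ), n = 2 * k + 3 ∧
      a = c • FreeLieAlgebra.of ℚ k + b := by
  by_cases hn : ∃ k, n = 2 * k + 3
  · obtain ⟨k, rfl⟩ := hn
    have h : Fpart (2 * k + 3) ≤ Submodule.span ℚ {FreeLieAlgebra.of ℚ k} ⊔ Fnode (2 * k + 3) := by
      unfold Fpart wtPart
      rw [Submodule.span_le]
      rintro _ ⟨t, ht, rfl⟩
      cases t with
      | leaf x =>
        have : x = k := by simp only [Tr.wt] at ht; omega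
        subst this
        exact Submodule.mem_sup_left (Submodule.mem_span_singleton_self _)
      | node a b => exact Submodule.mem_sup_right (Submodule.subset_span ⟨a, b, ht, rfl⟩)
    obtain ⟨y, hy, z, hz, rfl⟩ := Submodule.mem_sup.1 (h ha)
    obtain ⟨c, rfl⟩ := Submodule.mem_span_singleton.1 hy
    exact ⟨z, hz, Or.inr ⟨k, c, rfl, rfl⟩⟩
  · refine ⟨a, ?_, Or.inl rfl⟩
    have h : Fpart n ≤ Fnode n := by
      unfold Fpart wtPart
      rw [Submodule.span_le]
      rintro _ ⟨t, ht, rfl⟩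
      cases t with
      | leaf x => exact absurd ⟨x, ht.symm⟩ hn
      | node a b => exact Submodule.subset_span ⟨a, b, ht, rfl⟩
    exact h ha

/-- brackets go to `{W, W}` -/
theorem Fnode_WW {f : F →ₗ[ℚ] L} (hiso : IsGradedIso f) {n : ℕ} {b : F} (hb : b ∈ Fnode n) :
    f b ∈ WW := by
  have h : Fnode n ≤ WW.comap f := by
    unfold Fnode
    rw [Submodule.span_le]
    rintro _ ⟨u, v, -, rfl⟩
    refine Submodule.subset_span ⟨f (u.eval (FreeLieAlgebra.of ℚ)),
      f (v.eval (FreeLieAlgebra.of ℚ)), ?_, ?_, isBr_of (hiso.1 _ _)⟩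
    · exact (isW_iff _).2 ((range_iff_isSol f hiso.2.2 _).2 ⟨_, rfl⟩)
    · exact (isW_iff _).2 ((range_iff_isSol f hiso.2.2 _).2 ⟨_, rfl⟩)
  exact h hb

/-- an element of `W n` is in `{W, W}` if and only if its coefficient of `x^(n-1) y` is zero -/
theorem mem_WW_iff {n : ℕ} {ψ : L} (h : ψ ∈ W n) :
    ψ ∈ WW ↔ Vale.Agent.P029.coefXY (n - 1) ψ = 0 := by
  refine ⟨coef_WW _, fun h0 => ?_⟩
  obtain ⟨σ, f, -, hc, hf, hiso⟩ := main_iso
  rw [← hiso.2.2 n] at h
  obtain ⟨a, ha, rfl⟩ := h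
  obtain ⟨b, hb, rfl | ⟨k, c, rfl, rfl⟩⟩ := Fpart_split ha
  · exact Fnode_WW hiso hb
  · obtain ⟨l, hl⟩ := Low.coefXY_linear (2 * k + 3 - 1)
    rw [← hl, map_add, map_smul, map_add, map_smul, hl, hl (f b),
      coef_WW _ (Fnode_WW hiso hb), add_zero, hf k, smul_eq_mul] at h0
    have h1 : c = 0 := (mul_eq_zero.1 h0).resolve_right (hc k)
    rw [h1, zero_smul, zero_add]
    exact Fnode_WW hiso hb

/-- an isomorphism in the sense of `Stmt.lean` as a linear map -/
theorem isIso_to {f : F → L} (h : Stmt.IsIso f) :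
    ∃ g : F →ₗ[ℚ] L, (∀ a, g a = f a) ∧ IsGradedIso g := by
  let g : F →ₗ[ℚ] L := { toFun := f, map_add' := h.1, map_smul' := h.2.1 }
  refine ⟨g, fun _ => rfl, fun a b => isBr_iff.1 (h.2.2.1 a b), h.2.2.2.1, fun n => ?_⟩
  ext ψ
  rw [Submodule.mem_map, ← isWn_iff, h.2.2.2.2.2 n ψ, Fpart_eq]
  rfl

/-- the criterion for an induced map to be an isomorphism -/
theorem iso_iff {σ : ℕ → L} {f : F → L} (hf : IsInduced σ f) :
    Stmt.IsIso f ↔ ∀ k, Stmt.IsWn (2 * k + 3) (σ k) ∧ coefXY (2 * k + 2) (σ k) ≠ 0 := by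
  constructor
  · intro h k
    have hk : FreeLieAlgebra.of ℚ k ∈ Stmt.Fpart (2 * k + 3) :=
      Submodule.subset_span (Stmt.IsMon.of k)
    have h1 : Stmt.IsWn (2 * k + 3) (σ k) := by
      rw [← hf.2.2.2 k]
      exact (h.2.2.2.2.2 (2 * k + 3) _).2 ⟨_, hk, rfl⟩
    refine ⟨h1, fun h0 => ?_⟩
    obtain ⟨s, hs, hsc⟩ := Low.sigma_exists k
    obtain ⟨a, ha, hfa⟩ := (h.2.2.2.2.2 (2 * k + 3) s).1 ((isWn_iff _ _).2 hs)
    rw [Fpart_eq] at ha
    obtain ⟨g, hg, hiso⟩ := isIso_to h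
    obtain ⟨l, hl⟩ := Low.coefXY_linear (2 * k + 2)
    rw [← hfa, ← hg, ← hl] at hsc
    obtain ⟨b, hb, rfl | ⟨j, c, hj, rfl⟩⟩ := Fpart_split ha
    · exact hsc (by rw [hl]; exact coef_WW _ (Fnode_WW hiso hb))
    · have hjk : j = k := by omega
      subst hjk
      apply hsc
      have h2 : Vale.Agent.P029.coefXY (2 * j + 2) (σ j) = 0 := h0
      rw [map_add, map_smul, map_add, map_smul, hl (g b), coef_WW _ (Fnode_WW hiso hb), hg,
        hf.2.2.2 j, hl, h2, smul_zero, add_zero]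
  · intro h
    obtain ⟨g, hg, hiso⟩ := iso_of_closed wClosed σ (fun k => (isWn_iff _ _).1 (h k).1)
      (fun k => (h k).2)
    have : f = g := induced_unique hf (induced_of hg hiso.1)
    rw [this]
    exact isIso_of hiso

end Vale.Agent.P029.H461
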